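import Mathlib
import Vale.Agent.P192.Periodic

/-!
P192: a periodic finitely presented group has no orbit crossing a long chain of bounded cuts.

Two cuts with the same finite pattern and the same connectivity on the near side are glued. This
gives an action which commutes with a free shift and has a point in the orbit of one of its
translates, hence an element of infinite order.
-/

namespace Vale.Agent.P192.Tree

open Equiv
open scoped Classical

universe u v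

variable {G : Type u} [Group G] {n : ℕ} {X : Type v}

/-- connectivity by generator steps inside a set -/
def Reach (st : Fin n × Bool → X → X) (A : Set X) : X → X → Prop :=
  Relation.ReflTransGen fun a b => a ∈ A ∧ b ∈ A ∧ ∃ s, st s a = b

lemma Reach.symm {st : Fin n × Bool → X → X} (hst : ∀ i b z, st (i, !b) (st (i, b) z) = z)
    {A : Set X} {a b : X} (h : Reach st A a b) : Reach st A b a := by
  induction h with
  | refl => exact Relation.ReflTransGen.refl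
  | @tail y z _ hyz ih =>
    obtain ⟨hy, hz, ⟨i, c⟩, hs⟩ := hyz
    exact Relation.ReflTransGen.head ⟨hz, hy, (i, !c), hs ▸ hst i c y⟩ ih

/-- the gluing of two cuts with equal pattern contradicts periodicity -/
lemma glue (hT : ∀ g : G, IsOfFinOrder g) (φ : FreeGroup (Fin n) →* G)
    (hφ : Function.Surjective φ) (S : Set (FreeGroup (Fin n))) (L : ℕ)
    (hL : ∀ r ∈ S, r.toWord.length ≤ L) (hker : Subgroup.normalClosure S = φ.ker)
    (ρ : G →* Perm X) (st : Fin n × Bool → X → X)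
    (hst : ∀ s z, st s z = ρ (φ (FreeGroup.mk [s])) z)
    (Ai Aj : Set X) (Wi Wj : Finset X)
    (hbi : ∀ z w, w.length ≤ L + 2 → ¬(z ∈ Ai ↔ ρ (φ (FreeGroup.mk w)) z ∈ Ai) → z ∈ Wi)
    (hbj : ∀ z w, w.length ≤ L + 2 → ¬(z ∈ Aj ↔ ρ (φ (FreeGroup.mk w)) z ∈ Aj) → z ∈ Wj)
    (hWi : ∀ z ∈ Wi, z ∈ Aj) (hWj : ∀ z ∈ Wj, z ∉ Ai)
    (f g : X → X) (hf : ∀ z ∈ Wi, f z ∈ Wj) (hg : ∀ z ∈ Wj, g z ∈ Wi)
    (hgf : ∀ z ∈ Wi, g (f z) = z) (hfg : ∀ z ∈ Wj, f (g z) = z)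
    (hside : ∀ z ∈ Wi, (z ∈ Ai ↔ f z ∈ Aj))
    (hmove : ∀ s, ∀ z ∈ Wi, ∀ z' ∈ Wi, (st s z = z' ↔ st s (f z) = f z'))
    (hconn : ∀ u ∈ Wi, ∀ v ∈ Wi, Reach st Ai u v → Reach st Aj (f u) (f v))
    (x t : X) (ht : t ∈ Wi) (htA : t ∈ Ai) (hxt : Reach st Ai x t)
    (hxt' : Reach st Aj x (f t)) : False := by
  have sinv : ∀ i b z, st (i, !b) (st (i, b) z) = z := fun i b z => by
    rw [hst, hst, ← Perm.mul_apply, ← map_mul, ← map_mul, mk_flip, map_one, map_one,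
      Perm.one_apply]
  have word1 : ∀ s z, ρ (φ (FreeGroup.mk [s])) z = st s z := fun s z => (hst s z).symm
  -- crossings land in the windows
  have cross : ∀ z w, w.length ≤ L + 2 → (z ∈ Ai → ρ (φ (FreeGroup.mk w)) z ∉ Ai → z ∈ Wi) ∧
      (z ∉ Ai → ρ (φ (FreeGroup.mk w)) z ∈ Ai → ρ (φ (FreeGroup.mk w)) z ∈ Wi) ∧
      (z ∈ Aj → ρ (φ (FreeGroup.mk w)) z ∉ Aj → ρ (φ (FreeGroup.mk w)) z ∈ Wj) := by
    intro z w hw
    obtain ⟨y, hy⟩ : ∃ y, y = ρ (φ (FreeGroup.mk w)) z := ⟨_, rfl⟩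
    have back : ρ (φ (FreeGroup.mk (FreeGroup.invRev w))) y = z := by
      rw [hy, ← Perm.mul_apply, ← map_mul, ← map_mul, ← FreeGroup.inv_mk, inv_mul_cancel, map_one,
        map_one, Perm.one_apply]
    have hlen : (FreeGroup.invRev w).length ≤ L + 2 := by rwa [FreeGroup.invRev_length]
    rw [← hy]
    refine ⟨fun h1 h2 => hbi z w hw ?_, fun h1 h2 => hbi y _ hlen ?_,
      fun h1 h2 => hbj y _ hlen ?_⟩
    · rw [← hy]; tauto
    · rw [back]; tauto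
    · rw [back]; tauto
  have step1 : ∀ s z, (z ∈ Ai → st s z ∉ Ai → z ∈ Wi ∧ st s z ∈ Wi) ∧
      (z ∉ Ai → st s z ∈ Ai → z ∈ Wi ∧ st s z ∈ Wi) ∧
      (z ∈ Aj → st s z ∉ Aj → z ∈ Wj ∧ st s z ∈ Wj) ∧
      (z ∉ Aj → st s z ∈ Aj → z ∈ Wj ∧ st s z ∈ Wj) := by
    intro s z
    obtain ⟨i, b⟩ := s
    have h1 : ∀ (P : Set X) (W : Finset X),
        (∀ z w, w.length ≤ L + 2 → ¬(z ∈ P ↔ ρ (φ (FreeGroup.mk w)) z ∈ P) → z ∈ W) →
        ¬(z ∈ P ↔ st (i, b) z ∈ P) → z ∈ W ∧ st (i, b) z ∈ W := fun P W h hne =>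
      ⟨h z [(i, b)] (by simp) (by rwa [word1]),
        h (st (i, b) z) [(i, !b)] (by simp) (by rw [word1, sinv]; tauto)⟩
    exact ⟨fun a c => h1 Ai Wi hbi (by tauto), fun a c => h1 Ai Wi hbi (by tauto),
      fun a c => h1 Aj Wj hbj (by tauto), fun a c => h1 Aj Wj hbj (by tauto)⟩
  -- the glued space: the middle piece times ℤ, with the chart at a sheet
  obtain ⟨Ψ, hΨ⟩ : ∃ Ψ : ℤ → X → X × ℤ, ∀ k z, Ψ k z =
      if z ∈ Aj ∧ z ∉ Ai then (z, k) else if z ∈ Ai then (f z, k - 1) else (g z, k + 1) :=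
    ⟨_, fun _ _ => rfl⟩
  obtain ⟨Dom, hDom⟩ : ∃ Dom : X → Prop, ∀ z, Dom z ↔
      (z ∈ Aj ∧ z ∉ Ai) ∨ (z ∈ Ai ∧ z ∈ Wi) ∨ (z ∉ Aj ∧ z ∈ Wj) := ⟨_, fun _ => Iff.rfl⟩
  have hΨM : ∀ k z, z ∈ Aj → z ∉ Ai → Ψ k z = (z, k) := fun k z a b => by
    rw [hΨ, if_pos ⟨a, b⟩]
  have hΨi : ∀ k z, z ∈ Ai → Ψ k z = (f z, k - 1) := fun k z a => by
    rw [hΨ, if_neg fun h => h.2 a, if_pos a]
  have hΨj : ∀ k z, z ∈ Wj → z ∉ Aj → Ψ k z = (g z, k + 1) := fun k z a b => by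
    rw [hΨ, if_neg fun h => b h.1, if_neg (hWj z a)]
  have hgside : ∀ z ∈ Wj, (g z ∈ Ai ↔ z ∈ Aj) := fun z hz => by
    rw [hside _ (hg z hz), hfg z hz]
  have inM : ∀ k z, Dom z → (Ψ k z).1 ∈ Aj ∧ (Ψ k z).1 ∉ Ai := by
    intro k z hz
    rcases (hDom z).1 hz with ⟨a, b⟩ | ⟨a, b⟩ | ⟨a, b⟩
    · rw [hΨM k z a b]; exact ⟨a, b⟩
    · rw [hΨi k z a]; exact ⟨(hside z b).1 a, hWj _ (hf z b)⟩
    · rw [hΨj k z b a]; exact ⟨hWi _ (hg z b), fun h => a ((hgside z b).1 h)⟩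
  obtain ⟨F, hF⟩ : ∃ F : Fin n × Bool → X × ℤ → X × ℤ, ∀ s q, F s q =
      if q.1 ∈ Aj ∧ q.1 ∉ Ai then Ψ q.2 (st s q.1) else q := ⟨_, fun _ _ => rfl⟩
  -- a generator step in a chart
  have chart : ∀ k s z, Dom z → Dom (st s z) → F s (Ψ k z) = Ψ k (st s z) := by
    intro k s z hz hu
    rw [hF, if_pos (inM k z hz)]
    rcases (hDom z).1 hz with ⟨a, b⟩ | ⟨a, hzW⟩ | ⟨a, hzW⟩
    · rw [hΨM k z a b]
    · have huW : st s z ∈ Wi := by
        by_cases h : st s z ∈ Ai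
        · rcases (hDom _).1 hu with ⟨-, h'⟩ | ⟨-, h'⟩ | ⟨-, h'⟩
          · exact absurd h h'
          · exact h'
          · exact absurd h (hWj _ h')
        · exact ((step1 s z).1 a h).2
      have e : st s (f z) = f (st s z) := (hmove s z hzW _ huW).1 rfl
      rw [hΨi k z a]
      simp only [e]
      by_cases h : st s z ∈ Ai
      · rw [hΨM _ _ ((hside _ huW).1 h) (hWj _ (hf _ huW)), hΨi k _ h]
      · rw [hΨj _ _ (hf _ huW) (fun h' => h ((hside _ huW).2 h')), hgf _ huW,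
          hΨM k _ (hWi _ huW) h, sub_add_cancel]
    · have huW : st s z ∈ Wj := by
        by_cases h : st s z ∈ Aj
        · exact ((step1 s z).2.2.2 a h).2
        · rcases (hDom _).1 hu with ⟨h', -⟩ | ⟨-, h'⟩ | ⟨-, h'⟩
          · exact absurd h' h
          · exact absurd (hWi _ h') h
          · exact h'
      have e : st s (g z) = g (st s z) := by
        have h1 := (hmove s (g z) (hg z hzW) (g (st s z)) (hg _ huW)).2
        rw [hfg z hzW, hfg _ huW] at h1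
        exact h1 rfl
      rw [hΨj k z hzW a]
      simp only [e]
      by_cases h : st s z ∈ Aj
      · rw [hΨi _ _ ((hgside _ huW).2 h), hfg _ huW, hΨM k _ h (hWj _ huW), add_sub_cancel_right]
      · rw [hΨM _ _ (hWi _ (hg _ huW)) (fun h' => h ((hgside _ huW).1 h')), hΨj k _ huW h]
  have near : ∀ z w, z ∈ Aj → z ∉ Ai → w.length ≤ L + 2 → Dom (ρ (φ (FreeGroup.mk w)) z) := by
    intro z w a b hw
    rw [hDom]
    have h1 := (cross z w hw).2.1 b
    have h2 := (cross z w hw).2.2 a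
    by_cases c : ρ (φ (FreeGroup.mk w)) z ∈ Ai <;> by_cases d : ρ (φ (FreeGroup.mk w)) z ∈ Aj <;>
      tauto
  have cancelF : ∀ i b q, F (i, !b) (F (i, b) q) = q := by
    intro i b q
    obtain ⟨z, k⟩ := q
    by_cases h : z ∈ Aj ∧ z ∉ Ai
    · have hu : Dom (st (i, b) z) := by
        rw [← word1]; exact near z [(i, b)] h.1 h.2 (by simp)
      have hz : Dom z := (hDom z).2 (Or.inl h)
      have h1 := chart k (i, b) z hz hu
      have h2 := chart k (i, !b) (st (i, b) z) hu (by rwa [sinv])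
      rw [hΨM k z h.1 h.2] at h1
      rw [h1, h2, sinv, hΨM k z h.1 h.2]
    · have : ∀ s, F s (z, k) = (z, k) := fun s => by rw [hF, if_neg h]
      rw [this, this]
  obtain ⟨p, hp⟩ : ∃ p : Fin n → Perm (X × ℤ), ∀ i, (∀ q, p i q = F (i, true) q) ∧
      ∀ q, (p i).symm q = F (i, false) q :=
    ⟨fun i => ⟨F (i, true), F (i, false), fun q => cancelF i true q, fun q => cancelF i false q⟩,
      fun i => ⟨fun _ => rfl, fun _ => rfl⟩⟩
  obtain ⟨T, hTdef⟩ : ∃ T : FreeGroup (Fin n) →* Perm (X × ℤ), T = FreeGroup.lift p :=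
    ⟨_, rfl⟩
  have hT1 : ∀ s q, T (FreeGroup.mk [s]) q = F s q := by
    rintro ⟨i, b⟩ q
    cases b <;> simp [hTdef, FreeGroup.lift_mk, hp, Perm.inv_def]
  have track : ∀ k z, z ∈ Aj → z ∉ Ai → ∀ w, w.length ≤ L + 2 →
      T (FreeGroup.mk w) (z, k) = Ψ k (ρ (φ (FreeGroup.mk w)) z) := by
    intro k z a b w
    induction w with
    | nil => intro _; simp [← FreeGroup.one_eq_mk, hΨM k z a b]
    | cons s w ih =>
      intro hw
      have hw' : w.length ≤ L + 2 := le_trans (by simp) hw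
      have h1 := near z w a b hw'
      have h2 := near z (s :: w) a b hw
      rw [mk_cons]
      rw [mk_cons] at h2
      simp only [map_mul, Perm.mul_apply, word1] at h2 ⊢
      rw [ih hw', hT1, chart k s _ h1 h2]
  have hfix : ∀ q : X × ℤ, ¬(q.1 ∈ Aj ∧ q.1 ∉ Ai) → ∀ w, T (FreeGroup.mk w) q = q := by
    intro q hq w
    induction w with
    | nil => simp [← FreeGroup.one_eq_mk]
    | cons s w ih => rw [mk_cons, map_mul, Perm.mul_apply, ih, hT1, hF, if_neg hq]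
  have hk : φ.ker ≤ T.ker := by
    rw [← hker]
    refine Subgroup.normalClosure_le_normal fun r hr => MonoidHom.mem_ker.2 (Equiv.ext fun q => ?_)
    obtain ⟨z, k⟩ := q
    rw [Perm.one_apply, ← FreeGroup.mk_toWord (x := r)]
    by_cases h : z ∈ Aj ∧ z ∉ Ai
    · rw [track k z h.1 h.2 _ (le_trans (hL r hr) (by omega)), FreeGroup.mk_toWord,
        MonoidHom.mem_ker.1 (hker ▸ Subgroup.subset_normalClosure hr : r ∈ φ.ker), map_one,
        Perm.one_apply, hΨM k z h.1 h.2]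
    · exact hfix (z, k) h _
  obtain ⟨σ, hσ⟩ : ∃ σ : G →* Perm (X × ℤ), ∀ w, σ (φ w) = T w :=
    ⟨φ.liftOfSurjective hφ ⟨T, hk⟩, fun w => by
      simp [MonoidHom.liftOfRightInverse_comp_apply]⟩
  -- the shift
  obtain ⟨sh, hsh⟩ : ∃ sh : ℤ → X × ℤ → X × ℤ, ∀ d q, sh d q = (q.1, q.2 + d) :=
    ⟨_, fun _ _ => rfl⟩
  have shΨ : ∀ d k z, sh d (Ψ k z) = Ψ (k + d) z := by
    intro d k z
    rw [hsh, hΨ, hΨ]
    split_ifs <;> simp only [Prod.mk.injEq, true_and] <;> ring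
  have shF : ∀ d s q, F s (sh d q) = sh d (F s q) := by
    intro d s q
    rw [hF, hF, hsh]
    by_cases h : q.1 ∈ Aj ∧ q.1 ∉ Ai
    · rw [if_pos h, if_pos h, shΨ]
    · rw [if_neg h, if_neg h, hsh]
  have shσ : ∀ d h q, σ h (sh d q) = sh d (σ h q) := by
    intro d h
    obtain ⟨v, rfl⟩ := hφ h
    rw [hσ, ← FreeGroup.mk_toWord (x := v)]
    induction v.toWord with
    | nil => intro q; simp [← FreeGroup.one_eq_mk]
    | cons s w ih =>
      intro q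
      rw [mk_cons, map_mul, Perm.mul_apply, Perm.mul_apply, ih, hT1, hT1, shF]
  have noShift : ∀ q d, (∃ h, σ h q = sh d q) → d = 0 := by
    rintro q d ⟨h, hh⟩
    have hpow : ∀ m : ℕ, σ (h ^ m) q = sh (m * d) q := by
      intro m
      induction m with
      | zero => simp [hsh]
      | succ m ih =>
        rw [pow_succ', map_mul, Perm.mul_apply, ih, shσ, hh, hsh, hsh, hsh]
        push_cast
        exact Prod.ext rfl (by ring)
    obtain ⟨m, hm0, hm⟩ := isOfFinOrder_iff_pow_eq_one.1 (hT h)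
    have := hpow m
    rw [hm, map_one, Perm.one_apply, hsh] at this
    have h2 : (m : ℤ) * d = 0 := by
      have := congrArg Prod.snd this
      simp only at this
      omega
    rcases mul_eq_zero.1 h2 with h3 | h3
    · omega
    · exact h3
  -- connectivity up to finitely many extra edges at sheet zero
  obtain ⟨O, hO⟩ : ∃ O : X × ℤ → X × ℤ → Prop, ∀ a b, O a b ↔ ∃ h, σ h a = b :=
    ⟨_, fun _ _ => Iff.rfl⟩
  have Otrans : ∀ {a b c}, O a b → O b c → O a c := fun hab hbc => by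
    obtain ⟨h, hh⟩ := (hO _ _).1 hab
    obtain ⟨h', hh'⟩ := (hO _ _).1 hbc
    exact (hO _ _).2 ⟨h' * h, by rw [map_mul, Perm.mul_apply, hh, hh']⟩
  have Osymm : ∀ {a b}, O a b → O b a := fun hab => by
    obtain ⟨h, hh⟩ := (hO _ _).1 hab
    exact (hO _ _).2 ⟨h⁻¹, by rw [← hh, ← Perm.mul_apply, ← map_mul]; simp⟩
  obtain ⟨E, hE⟩ : ∃ E : X × ℤ → X × ℤ → Prop, ∀ a b, E a b ↔
      O a b ∨ ∃ u ∈ Wi, ∃ v ∈ Wi, a = Ψ 0 u ∧ b = Ψ 0 v ∧ Reach st Ai u v :=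
    ⟨_, fun _ _ => Iff.rfl⟩
  obtain ⟨Conn, hConn⟩ : ∃ Conn : X × ℤ → X × ℤ → Prop, Conn = Relation.ReflTransGen E :=
    ⟨_, rfl⟩
  subst hConn
  have edge : ∀ k s z, Dom z → Dom (st s z) → E (Ψ k z) (Ψ k (st s z)) := fun k s z a b =>
    (hE _ _).2 (Or.inl ((hO _ _).2 ⟨φ (FreeGroup.mk [s]), by rw [hσ, hT1, chart k s z a b]⟩))
  -- a path inside the near side of the second cut
  have along : ∀ k : ℤ, (∀ u ∈ Wi, ∀ v ∈ Wi, u ∈ Ai → v ∈ Ai → Reach st Ai u v →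
        Relation.ReflTransGen E (Ψ k u) (Ψ k v)) →
      ∀ P a b, Reach st Aj a b →
      ((a ∈ Ai ∧ ∃ u ∈ Wi, u ∈ Ai ∧ Reach st Ai u a ∧ Relation.ReflTransGen E P (Ψ k u)) ∨
        (a ∈ Aj ∧ a ∉ Ai ∧ Relation.ReflTransGen E P (Ψ k a))) →
      ((b ∈ Ai ∧ ∃ u ∈ Wi, u ∈ Ai ∧ Reach st Ai u b ∧ Relation.ReflTransGen E P (Ψ k u)) ∨
        (b ∈ Aj ∧ b ∉ Ai ∧ Relation.ReflTransGen E P (Ψ k b))) := by
    intro k hk P a b hab h0
    induction hab with
    | refl => exact h0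
    | @tail y z _ hyz ih =>
      obtain ⟨hy, hz, s, rfl⟩ := hyz
      rcases ih with ⟨yA, u, hu, uA, hru, hPu⟩ | ⟨-, yA, hPy⟩
      · by_cases zA : st s y ∈ Ai
        · exact Or.inl ⟨zA, u, hu, uA, hru.tail ⟨yA, zA, s, rfl⟩, hPu⟩
        · refine Or.inr ⟨hz, zA, ?_⟩
          have hyW := ((step1 s y).1 yA zA).1
          exact (hPu.trans (hk u hu y hyW uA yA hru)).tail
            (edge k s y ((hDom y).2 (Or.inr (Or.inl ⟨yA, hyW⟩)))
              ((hDom _).2 (Or.inl ⟨hz, zA⟩)))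
      · by_cases zA : st s y ∈ Ai
        · have hzW := ((step1 s y).2.1 yA zA).2
          exact Or.inl ⟨zA, st s y, hzW, zA, Relation.ReflTransGen.refl, hPy.tail
            (edge k s y ((hDom y).2 (Or.inl ⟨hy, yA⟩))
              ((hDom _).2 (Or.inr (Or.inl ⟨zA, hzW⟩))))⟩
        · exact Or.inr ⟨hz, zA, hPy.tail (edge k s y ((hDom y).2 (Or.inl ⟨hy, yA⟩))
            ((hDom _).2 (Or.inl ⟨hz, zA⟩)))⟩
  have hfM : ∀ u ∈ Wi, u ∈ Ai → f u ∈ Aj ∧ f u ∉ Ai := fun u hu uA =>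
    ⟨(hside u hu).1 uA, hWj _ (hf u hu)⟩
  have next_ : ∀ (k : ℤ) u, u ∈ Wi → u ∈ Ai → Ψ k (f u) = Ψ (k + 1) u := fun k u hu uA => by
    rw [hΨM k _ (hfM u hu uA).1 (hfM u hu uA).2, hΨi _ u uA, add_sub_cancel_right]
  have lift : ∀ k : ℕ, ∀ u ∈ Wi, ∀ v ∈ Wi, u ∈ Ai → v ∈ Ai → Reach st Ai u v →
      Relation.ReflTransGen E (Ψ k u) (Ψ k v) := by
    intro k
    induction k with
    | zero =>
      intro u hu v hv _ _ h
      exact Relation.ReflTransGen.single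
        ((hE _ _).2 (Or.inr ⟨u, hu, v, hv, by simp, by simp, h⟩))
    | succ k ih =>
      intro u hu v hv uA vA h
      have := along k ih (Ψ k (f u)) (f u) (f v) (hconn u hu v hv h)
        (Or.inr ⟨(hfM u hu uA).1, (hfM u hu uA).2, Relation.ReflTransGen.refl⟩)
      rcases this with ⟨h', -⟩ | ⟨-, -, h'⟩
      · exact absurd h' (hfM v hv vA).2
      · rw [next_ _ u hu uA, next_ _ v hv vA] at h'
        push_cast
        exact h'
  have chain : ∀ k : ℕ, Relation.ReflTransGen E (Ψ 0 t) (Ψ k t) := by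
    intro k
    induction k with
    | zero => simp only [Nat.cast_zero]; exact Relation.ReflTransGen.refl
    | succ k ih =>
      have hxA : x ∈ Ai := by
        rcases hxt.cases_head with h | ⟨c, hc, -⟩
        · rw [h]; exact htA
        · exact hc.1
      have := along k (lift k) (Ψ k t) x (f t) hxt'
        (Or.inl ⟨hxA, t, ht, htA, Reach.symm sinv hxt, Relation.ReflTransGen.refl⟩)
      rcases this with ⟨h', -⟩ | ⟨-, -, h'⟩
      · exact absurd h' (hfM t ht htA).2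
      · rw [next_ _ t ht htA] at h'
        push_cast
        exact ih.trans h'
  have reachF : ∀ {a b}, Relation.ReflTransGen E a b →
      O a b ∨ ∃ u : Wi, O b (Ψ 0 u.1) := by
    intro a b hab
    induction hab with
    | refl => exact Or.inl ((hO _ _).2 ⟨1, by simp⟩)
    | @tail y z _ hyz ih =>
      rcases (hE _ _).1 hyz with h | ⟨u, -, v, hv, -, hz, -⟩
      · rcases ih with h' | ⟨w, h'⟩
        · exact Or.inl (Otrans h' h)
        · exact Or.inr ⟨w, Otrans (Osymm h) h'⟩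
      · exact Or.inr ⟨⟨v, hv⟩, hz ▸ (hO _ _).2 ⟨1, by simp⟩⟩
  have all0 : ∀ k : ℕ, ∃ u : Wi, O (Ψ k t) (Ψ 0 u.1) := fun k => by
    rcases reachF (chain k) with h | h
    · exact ⟨⟨t, ht⟩, Osymm h⟩
    · exact h
  choose U hU using all0
  obtain ⟨k, k', hne, he⟩ := Finite.exists_ne_map_eq_of_infinite U
  have h1 := Otrans (hU k) (Osymm (he ▸ hU k'))
  obtain ⟨h, hh⟩ := (hO _ _).1 h1
  have := noShift (Ψ k t) ((k' : ℤ) - k) ⟨h, by rw [hh, shΨ, add_sub_cancel]⟩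
  omega

/-- A periodic finitely presented group has no orbit crossing a long chain of bounded cuts. -/
lemma no_cuts (hT : ∀ g : G, IsOfFinOrder g) (φ : FreeGroup (Fin n) →* G)
    (hφ : Function.Surjective φ) (S : Set (FreeGroup (Fin n))) (L : ℕ)
    (hL : ∀ r ∈ S, r.toWord.length ≤ L) (hker : Subgroup.normalClosure S = φ.ker) (c : ℕ) :
    ∃ J : ℕ, ∀ (X : Type v) (ρ : G →* Perm X) (A : ℕ → Set X) (W : ℕ → Finset X),
      (∀ i ≤ J, (W i).card ≤ c) →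
      (∀ i ≤ J, ∀ z w, w.length ≤ L + 2 →
        ¬(z ∈ A i ↔ ρ (φ (FreeGroup.mk w)) z ∈ A i) → z ∈ W i) →
      (∀ i j, i < j → j ≤ J → (∀ z ∈ W i, z ∈ A j) ∧ ∀ z ∈ W j, z ∉ A i) →
      ∀ x g, (∀ i ≤ J, x ∈ A i) → (∀ i ≤ J, ρ g x ∉ A i) → False := by
  obtain ⟨Q, hQ⟩ : ∃ Q, Q = Nat.card ((Fin c → Prop) × (Fin c → Prop) ×
      ((Fin n × Bool) → Fin c → Fin c → Prop) × (Fin c → Fin c → Prop) × (Fin c → Prop)) :=
    ⟨_, rfl⟩
  refine ⟨Q, fun X ρ A W hcard hb hsep x g hx hy => ?_⟩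
  obtain ⟨st, hst⟩ : ∃ st : Fin n × Bool → X → X, ∀ s z, st s z = ρ (φ (FreeGroup.mk [s])) z :=
    ⟨_, fun _ _ => rfl⟩
  have emb : ∀ i : Fin (Q + 1), Nonempty ((W i : Finset X) ↪ Fin c) := fun i =>
    Function.Embedding.nonempty_of_card_le (by
      rw [Fintype.card_fin, Fintype.card_coe]; exact hcard _ (by omega))
  obtain ⟨ι⟩ : Nonempty (∀ i : Fin (Q + 1), (W i : Finset X) ↪ Fin c) :=
    ⟨fun i => (emb i).some⟩
  obtain ⟨code, hcode⟩ : ∃ code : Fin (Q + 1) → (Fin c → Prop) × (Fin c → Prop) ×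
      ((Fin n × Bool) → Fin c → Fin c → Prop) × (Fin c → Fin c → Prop) × (Fin c → Prop),
      ∀ i, code i = (fun a => ∃ z, ι i z = a, fun a => ∃ z, ι i z = a ∧ z.1 ∈ A i,
        fun s a b => ∃ z z', ι i z = a ∧ ι i z' = b ∧ st s z.1 = z'.1,
        fun a b => ∃ z z', ι i z = a ∧ ι i z' = b ∧ Reach st (A i) z.1 z'.1,
        fun a => ∃ z, ι i z = a ∧ Reach st (A i) x z.1) := ⟨_, fun _ => rfl⟩
  haveI := Fintype.ofFinite ((Fin c → Prop) × (Fin c → Prop) ×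
      ((Fin n × Bool) → Fin c → Fin c → Prop) × (Fin c → Fin c → Prop) × (Fin c → Prop))
  obtain ⟨i, j, hne, heq⟩ := Fintype.exists_ne_map_eq_of_card_lt code (by
    rw [Fintype.card_fin, hQ, Nat.card_eq_fintype_card]; omega)
  wlog hlt : i < j generalizing i j
  · exact this j i hne.symm heq.symm (lt_of_le_of_ne (not_lt.1 hlt) hne.symm)
  rw [hcode, hcode, Prod.mk.injEq, Prod.mk.injEq, Prod.mk.injEq, Prod.mk.injEq] at heq
  obtain ⟨e1, e2, e3, e4, e5⟩ := heq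
  have hsep' := hsep i j hlt (by omega)
  have fz : ∀ z : (W i : Finset X), ∃ z' : (W j : Finset X), ι j z' = ι i z := fun z =>
    (congrFun e1 (ι i z)).mp ⟨z, rfl⟩
  have gz : ∀ z : (W j : Finset X), ∃ z' : (W i : Finset X), ι i z' = ι j z := fun z =>
    (congrFun e1 (ι j z)).mpr ⟨z, rfl⟩
  choose fe hfe using fz
  choose ge hge using gz
  obtain ⟨f, hf⟩ : ∃ f : X → X, ∀ z : (W i : Finset X), f z.1 = (fe z).1 :=
    ⟨fun z => if h : z ∈ W i then (fe ⟨z, h⟩).1 else z, fun z => dif_pos z.2⟩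
  obtain ⟨g', hg'⟩ : ∃ g' : X → X, ∀ z : (W j : Finset X), g' z.1 = (ge z).1 :=
    ⟨fun z => if h : z ∈ W j then (ge ⟨z, h⟩).1 else z, fun z => dif_pos z.2⟩
  -- a point of the window of the first cut, joined to the base point on the near side
  obtain ⟨t, htA, htx⟩ : ∃ t : (W i : Finset X), t.1 ∈ A i ∧ Reach st (A i) x t.1 := by
    by_contra hno
    obtain ⟨v, rfl⟩ := hφ g
    have walk : ∀ w, ρ (φ (FreeGroup.mk w)) x ∈ A i ∧
        Reach st (A i) x (ρ (φ (FreeGroup.mk w)) x) := by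
      intro w
      induction w with
      | nil =>
        simp only [← FreeGroup.one_eq_mk, map_one, Perm.one_apply]
        exact ⟨hx i (by omega), Relation.ReflTransGen.refl⟩
      | cons s w ih =>
        rw [mk_cons, map_mul, map_mul, Perm.mul_apply]
        by_cases h : ρ (φ (FreeGroup.mk [s])) (ρ (φ (FreeGroup.mk w)) x) ∈ A i
        · exact ⟨h, ih.2.tail ⟨ih.1, h, s, hst _ _⟩⟩
        · exact absurd ⟨⟨_, hb i (by omega) _ [s] (by simp) fun hh => h (hh.1 ih.1)⟩, ih.1, ih.2⟩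
            hno
    have := (walk v.toWord).1
    rw [FreeGroup.mk_toWord] at this
    exact hy i (by omega) this
  refine glue hT φ hφ S L hL hker ρ st hst (A i) (A j) (W i) (W j) (hb i (by omega))
    (hb j (by omega)) hsep'.1 hsep'.2 f g' (fun z hz => ?_) (fun z hz => ?_) (fun z hz => ?_)
    (fun z hz => ?_) (fun z hz => ?_) (fun s z hz z' hz' => ?_) (fun u hu v hv h => ?_)
    x t.1 t.2 htA htx ?_
  · rw [hf ⟨z, hz⟩]; exact (fe _).2
  · rw [hg' ⟨z, hz⟩]; exact (ge _).2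
  · rw [hf ⟨z, hz⟩, hg', show ge (fe ⟨z, hz⟩) = ⟨z, hz⟩ from
      (ι i).injective (by rw [hge, hfe])]
  · rw [hg' ⟨z, hz⟩, hf, show fe (ge ⟨z, hz⟩) = ⟨z, hz⟩ from
      (ι j).injective (by rw [hfe, hge])]
  · rw [hf ⟨z, hz⟩]
    constructor
    · intro h
      obtain ⟨w, hw, hwA⟩ := (congrFun e2 (ι i ⟨z, hz⟩)).mp ⟨⟨z, hz⟩, rfl, h⟩
      rwa [(ι j).injective (hw.trans (hfe _).symm)] at hwA
    · intro h
      obtain ⟨w, hw, hwA⟩ := (congrFun e2 (ι i ⟨z, hz⟩)).mpr ⟨_, hfe _, h⟩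
      rwa [(ι i).injective hw] at hwA
  · rw [hf ⟨z, hz⟩, hf ⟨z', hz'⟩]
    have h3 := congrFun (congrFun (congrFun e3 s) (ι i ⟨z, hz⟩)) (ι i ⟨z', hz'⟩)
    constructor
    · intro h
      obtain ⟨w, w', hw, hw', hww⟩ := h3.mp ⟨_, _, rfl, rfl, h⟩
      rwa [(ι j).injective (hw.trans (hfe _).symm), (ι j).injective (hw'.trans (hfe _).symm)]
        at hww
    · intro h
      obtain ⟨w, w', hw, hw', hww⟩ := h3.mpr ⟨_, _, hfe _, hfe _, h⟩
      rwa [(ι i).injective hw, (ι i).injective hw'] at hww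
  · rw [hf ⟨u, hu⟩, hf ⟨v, hv⟩]
    obtain ⟨w, w', hw, hw', hww⟩ :=
      (congrFun (congrFun e4 (ι i ⟨u, hu⟩)) (ι i ⟨v, hv⟩)).mp ⟨⟨u, hu⟩, ⟨v, hv⟩, rfl, rfl, h⟩
    rwa [(ι j).injective (hw.trans (hfe _).symm), (ι j).injective (hw'.trans (hfe _).symm)] at hww
  · rw [hf t]
    obtain ⟨w, hw, hww⟩ := (congrFun e5 (ι i t)).mp ⟨t, rfl, htx⟩
    rwa [(ι j).injective (hw.trans (hfe _).symm)] at hww

end Vale.Agent.P192.Tree
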