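import Mathlib
import Vale.Agent.P192.Tree.Cut

/-!
P192: periodic finitely presented groups have finite image in every action by bounded displacements
over a forest whose balls have boundedly many preimages.
-/

namespace Vale.Agent.P192.Tree

open Equiv SimpleGraph
open scoped Classical

universe u v w

variable {V : Type w} {T : SimpleGraph V}

lemma edge_mem : ∀ {a b : V} (p : T.Walk a b) (m : ℕ), m < p.length →
    s(p.getVert m, p.getVert (m + 1)) ∈ p.edges := by
  intro a b p
  induction p with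
  | nil => intro m h; simp at h
  | cons h q ih =>
    intro m hm
    cases m with
    | zero => simp
    | succ m => simpa using Or.inr (ih m (by simpa using hm))

/-- facts about the segments of a path of a forest -/
lemma segment_facts (hT : T.IsAcyclic) {a b : V} (P : T.Walk a b) (hP : P.IsPath) :
    (∀ i j, i ≤ j → j ≤ P.length → ∀ q : T.Walk (P.getVert i) (P.getVert j), j - i ≤ q.length) ∧
    (∀ i k j, i ≤ k → k < j → j ≤ P.length →
      ¬(T.deleteEdges {s(P.getVert k, P.getVert (k + 1))}).Reachable (P.getVert i) (P.getVert j)) ∧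
    ∀ i j k, i ≤ j → j ≤ P.length → (k < i ∨ j ≤ k) → k < P.length →
      (T.deleteEdges {s(P.getVert k, P.getVert (k + 1))}).Reachable (P.getVert i) (P.getVert j) := by
  have seg : ∀ i j, i ≤ j → j ≤ P.length → ∃ Q : T.Walk (P.getVert i) (P.getVert j),
      Q.IsPath ∧ Q.length = j - i ∧ ∀ m, m ≤ j - i → Q.getVert m = P.getVert (i + m) := by
    intro i j hij hj
    refine ⟨((P.drop i).take (j - i)).copy rfl (by rw [Walk.drop_getVert]; congr 1; omega), ?_, ?_,
      fun m hm => ?_⟩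
    · rw [Walk.isPath_copy]; exact (hP.drop i).take _
    · rw [Walk.length_copy, Walk.take_length, Walk.drop_length]; omega
    · rw [Walk.getVert_copy, Walk.take_getVert, Walk.drop_getVert, Nat.min_eq_right hm]
  refine ⟨fun i j hij hj q => ?_, fun i k j hik hkj hj hr => ?_, fun i j k hij hj hk hkN => ?_⟩
  · obtain ⟨Q, hQ, hQl, -⟩ := seg i j hij hj
    have h := hT.path_unique ⟨Q, hQ⟩ q.toPath
    have h' : Q = q.bypass := congrArg Subtype.val h
    rw [← hQl, h']
    exact Walk.length_bypass_le_length q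
  · obtain ⟨Q, hQ, hQl, hQv⟩ := seg i j (by omega) hj
    obtain ⟨p⟩ := hr
    have h := hT.path_unique ⟨Q, hQ⟩ (p.mapLe (deleteEdges_le _)).toPath
    have h' : Q = (p.mapLe (deleteEdges_le _)).bypass := congrArg Subtype.val h
    have e := edge_mem Q (k - i) (by omega)
    rw [hQv _ (by omega), hQv _ (by omega), show i + (k - i) = k by omega,
      show i + (k - i + 1) = k + 1 by omega, h'] at e
    have e' := Walk.edges_bypass_subset _ e
    rw [Walk.edges_mapLe_eq_edges] at e'
    have := p.edges_subset_edgeSet e'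
    simp at this
  · obtain ⟨Q, hQ, hQl, hQv⟩ := seg i j hij hj
    refine ⟨Q.toDeleteEdges _ fun e he hek => ?_⟩
    rw [Set.mem_singleton_iff] at hek
    subst hek
    have idx : ∀ m, m ≤ P.length → P.getVert m ∈ Q.support → i ≤ m ∧ m ≤ j := by
      intro m hm hmem
      obtain ⟨r, hr, hrl⟩ := Walk.mem_support_iff_exists_getVert.1 hmem
      rw [hQv r (by omega)] at hr
      have := hP.getVert_injOn (show i + r ∈ {x | x ≤ P.length} by
        simp only [Set.mem_ofPred_eq]; omega) (show m ∈ {x | x ≤ P.length} by simpa using hm) hr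
      omega
    have h1 := idx k (by omega) (Q.fst_mem_support_of_mem_edges he)
    have h2 := idx (k + 1) (by omega) (Q.snd_mem_support_of_mem_edges he)
    omega

variable {G : Type u} [Group G] {n : ℕ} {X : Type v}

/-- orbits are bounded -/
lemma orbit_bound (hT : ∀ g : G, IsOfFinOrder g) (φ : FreeGroup (Fin n) →* G)
    (hφ : Function.Surjective φ) (S : Set (FreeGroup (Fin n))) (L : ℕ)
    (hL : ∀ r ∈ S, r.toWord.length ≤ L) (hker : Subgroup.normalClosure S = φ.ker)
    (ρ : G →* Perm X) (hacy : T.IsAcyclic) (π : X → V)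
    (hball : ∀ r : ℕ, ∃ c : ℕ, ∀ (a : V) (s : Finset X),
      (∀ x ∈ s, ∃ p : T.Walk a (π x), p.length ≤ r) → s.card ≤ c)
    (hdisp : ∀ g, ∃ N : ℕ, ∀ x, ∃ p : T.Walk (π x) (π (ρ g x)), p.length ≤ N) :
    ∃ C : ℕ, ∀ x (s : Finset X), (∀ y ∈ s, ∃ g, ρ g x = y) → s.card ≤ C := by
  choose N hN using hdisp
  obtain ⟨D, hD⟩ : ∃ D, D = Finset.univ.sup fun s : Fin n × Bool => N (φ (FreeGroup.mk [s])) :=
    ⟨_, rfl⟩
  have walk : ∀ w x, ∃ p : T.Walk (π x) (π (ρ (φ (FreeGroup.mk w)) x)),
      p.length ≤ w.length * D := by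
    intro w
    induction w with
    | nil =>
      intro x
      rw [← FreeGroup.one_eq_mk, map_one, map_one, Perm.one_apply]
      exact ⟨Walk.nil, by simp⟩
    | cons s w ih =>
      intro x
      obtain ⟨p, hp⟩ := ih x
      obtain ⟨q, hq⟩ := hN (φ (FreeGroup.mk [s])) (ρ (φ (FreeGroup.mk w)) x)
      rw [mk_cons, map_mul, map_mul, Perm.mul_apply]
      refine ⟨p.append q, ?_⟩
      have : N (φ (FreeGroup.mk [s])) ≤ D := hD ▸ Finset.le_sup
        (f := fun s : Fin n × Bool => N (φ (FreeGroup.mk [s]))) (Finset.mem_univ _)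
      rw [Walk.length_append, List.length_cons, add_mul, one_mul]
      omega
  obtain ⟨R, hR⟩ : ∃ R, R = (L + 2) * D := ⟨_, rfl⟩
  obtain ⟨c, hc⟩ := hball R
  obtain ⟨J, hJ⟩ := no_cuts.{u, v} hT φ hφ S L hL hker c
  obtain ⟨M, hM⟩ : ∃ M, M = 2 * R + 1 := ⟨_, rfl⟩
  obtain ⟨C, hC⟩ := hball (M * (J + 1) + 1)
  refine ⟨C, fun x s hs => hC (π x) s fun y hy => ?_⟩
  obtain ⟨g, rfl⟩ := hs y hy
  obtain ⟨P, hP⟩ : ∃ P : T.Walk (π x) (π (ρ g x)), P.IsPath := by
    obtain ⟨v, rfl⟩ := hφ g
    obtain ⟨p, -⟩ := walk v.toWord x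
    rw [FreeGroup.mk_toWord] at p
    exact ⟨p.bypass, p.bypass_isPath⟩
  refine ⟨P, ?_⟩
  by_contra hlong
  rw [not_le] at hlong
  obtain ⟨f1, f2, f3⟩ := segment_facts hacy P hP
  have inb : ∀ i ≤ J, M * i + 1 ≤ P.length := fun i hi => by
    have := Nat.mul_le_mul_left M (show i ≤ J + 1 by omega)
    omega
  obtain ⟨A, hA⟩ : ∃ A : ℕ → Set X, ∀ i z, z ∈ A i ↔
      ¬(T.deleteEdges {s(P.getVert (M * i), P.getVert (M * i + 1))}).Reachable (π z)
        (P.getVert (M * i + 1)) := ⟨fun i => {z | _}, fun _ _ => Iff.rfl⟩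
  have fin : ∀ a : V, {z : X | ∃ p : T.Walk a (π z), p.length ≤ R}.Finite := fun a => by
    by_contra hinf
    obtain ⟨t, ht, htc⟩ := Set.Infinite.exists_subset_card_eq hinf (c + 1)
    have := hc a t fun z hz => ht hz
    omega
  obtain ⟨W, hW⟩ : ∃ W : ℕ → Finset X, ∀ i z, z ∈ W i ↔
      ∃ p : T.Walk (P.getVert (M * i)) (π z), p.length ≤ R :=
    ⟨fun i => (fin (P.getVert (M * i))).toFinset, fun _ _ => Set.Finite.mem_toFinset _⟩
  refine hJ X ρ A W (fun i _ => hc _ (W i) fun z hz => (hW i z).1 hz) (fun i hi z w hw hne => ?_)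
    (fun i j hij hj => ⟨fun z hz => ?_, fun z hz => ?_⟩) x g (fun i hi => ?_) (fun i hi => ?_)
  · obtain ⟨p, hp⟩ := walk w z
    have hpR : p.length ≤ R := le_trans hp (hR ▸ Nat.mul_le_mul_right D hw)
    rw [hW]
    by_cases hk : P.getVert (M * i) ∈ p.support
    · exact ⟨(p.takeUntil _ hk).reverse, by
        rw [Walk.length_reverse]; exact le_trans (p.length_takeUntil_le_length hk) hpR⟩
    · refine absurd ?_ hne
      have hr : (T.deleteEdges {s(P.getVert (M * i), P.getVert (M * i + 1))}).Reachable (π z)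
          (π (ρ (φ (FreeGroup.mk w)) z)) := ⟨p.toDeleteEdges _ fun e he hek => hk (by
        rw [Set.mem_singleton_iff] at hek
        exact p.fst_mem_support_of_mem_edges (hek ▸ he))⟩
      rw [hA, hA]
      exact not_congr ⟨fun h => hr.symm.trans h, fun h => hr.trans h⟩
  · obtain ⟨q, hq⟩ := (hW i z).1 hz
    rw [hA]
    intro h
    have hij' : M * i + M ≤ M * j := by nlinarith
    have hjN := inb j hj
    refine f2 (M * i) (M * j) (M * j + 1) (by omega) (by omega) hjN (Reachable.trans ?_ h)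
    refine ⟨q.toDeleteEdges _ fun e he hek => ?_⟩
    rw [Set.mem_singleton_iff] at hek
    have hmem := q.fst_mem_support_of_mem_edges (hek ▸ he)
    have h1 := f1 (M * i) (M * j) (by omega) (by omega) (q.takeUntil _ hmem)
    have := q.length_takeUntil_le_length hmem
    omega
  · obtain ⟨q, hq⟩ := (hW j z).1 hz
    rw [hA, not_not]
    have hij' : M * i + M ≤ M * j := by nlinarith
    have hjN := inb j hj
    refine Reachable.trans ?_ (f3 (M * i + 1) (M * j) (M * i) (by omega) (by omega) (by omega)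
      (by omega)).symm
    refine Reachable.symm ⟨q.toDeleteEdges _ fun e he hek => ?_⟩
    rw [Set.mem_singleton_iff] at hek
    have hmem := q.fst_mem_support_of_mem_edges (hek ▸ he)
    have h1 := f1 (M * i) (M * j) (by omega) (by omega) (q.takeUntil _ hmem).reverse
    have := q.length_takeUntil_le_length hmem
    rw [Walk.length_reverse] at h1
    omega
  · rw [hA]
    have := f2 0 (M * i) (M * i + 1) (by omega) (by omega) (inb i hi)
    rwa [Walk.getVert_zero] at this
  · rw [hA, not_not]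
    have := f3 (M * i + 1) P.length (M * i) (inb i hi) le_rfl (by omega) (by have := inb i hi; omega)
    rw [Walk.getVert_length] at this
    exact this.symm

/-- finite image -/
lemma image_finite_of_forest [Group.IsFinitelyPresented G] (hT : ∀ g : G, IsOfFinOrder g)
    (ρ : G →* Perm X) (hacy : T.IsAcyclic) (π : X → V)
    (hball : ∀ r : ℕ, ∃ c : ℕ, ∀ (a : V) (s : Finset X),
      (∀ x ∈ s, ∃ p : T.Walk a (π x), p.length ≤ r) → s.card ≤ c)
    (hdisp : ∀ g, ∃ N : ℕ, ∀ x, ∃ p : T.Walk (π x) (π (ρ g x)), p.length ≤ N) :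
    (Set.range ρ).Finite := by
  obtain ⟨n, φ, hφ, S, hS, hker⟩ := Group.IsFinitelyPresented.out (G := G)
  obtain ⟨L, hL⟩ : ∃ L, ∀ r ∈ S, r.toWord.length ≤ L :=
    ⟨hS.toFinset.sup (fun r => r.toWord.length), fun r hr =>
      Finset.le_sup (f := fun r : FreeGroup (Fin n) => r.toWord.length) (hS.mem_toFinset.2 hr)⟩
  obtain ⟨C, hC⟩ := orbit_bound hT φ hφ S L hL hker ρ hacy π hball hdisp
  haveI : Finite (G →* Perm (Fin C)) :=
    Finite.of_injective (fun f i => f (φ (FreeGroup.of i))) fun f f' h => by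
      refine MonoidHom.ext fun g => ?_
      obtain ⟨v, rfl⟩ := hφ g
      exact DFunLike.congr_fun (FreeGroup.ext_hom (f.comp φ) (f'.comp φ) (congrFun h)) v
  obtain ⟨Φ, hΦ⟩ : ∃ Φ : G → ((G →* Perm (Fin C)) → Perm (Fin C)), ∀ g f, Φ g f = f g :=
    ⟨_, fun _ _ => rfl⟩
  have key : ∀ g g', Φ g = Φ g' → ρ g = ρ g' := by
    intro g g' h
    refine Equiv.ext fun x => ?_
    obtain ⟨O, hO⟩ : ∃ O : Set X, ∀ y, y ∈ O ↔ ∃ g, ρ g x = y :=
      ⟨{y | ∃ g, ρ g x = y}, fun _ => Iff.rfl⟩
    have hfin : O.Finite := by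
      by_contra hinf
      obtain ⟨t, ht, htc⟩ := Set.Infinite.exists_subset_card_eq hinf (C + 1)
      have := hC x t fun y hy => (hO y).1 (ht hy)
      omega
    haveI := hfin.fintype
    obtain ⟨ι⟩ : Nonempty (O ↪ Fin C) := by
      refine Function.Embedding.nonempty_of_card_le ?_
      rw [Fintype.card_fin, ← Set.toFinset_card]
      exact hC x _ fun y hy => (hO y).1 (Set.mem_toFinset.1 hy)
    have mem : ∀ g y, ρ g y ∈ O ↔ y ∈ O := by
      intro g y
      constructor
      · intro hy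
        obtain ⟨g', hg'⟩ := (hO _).1 hy
        exact (hO _).2 ⟨g⁻¹ * g', by rw [map_mul, Perm.mul_apply, hg',
          ← Perm.mul_apply, ← map_mul, inv_mul_cancel, map_one, Perm.one_apply]⟩
      · intro hy
        obtain ⟨g', hg'⟩ := (hO _).1 hy
        exact (hO _).2 ⟨g * g', by rw [map_mul, Perm.mul_apply, hg']⟩
    obtain ⟨σ, hσ⟩ : ∃ σ : G →* Perm O, ∀ g y, (σ g y : X) = ρ g y :=
      ⟨MonoidHom.mk' (fun g => (ρ g).subtypePerm (mem g)) (fun g g' => by
        ext y; simp only [map_mul]; rfl), fun g y => rfl⟩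
    have h1 := congrFun h ((Perm.viaEmbeddingHom ι).comp σ)
    rw [hΦ, hΦ, MonoidHom.comp_apply, MonoidHom.comp_apply] at h1
    have h2 := Perm.viaEmbeddingHom_injective ι h1
    have hx : x ∈ O := (hO x).2 ⟨1, by simp⟩
    rw [← hσ g ⟨x, hx⟩, ← hσ g' ⟨x, hx⟩, h2]
  refine Set.finite_coe_iff.1 (Finite.of_injective (fun r : Set.range ρ => Φ r.2.choose) ?_)
  intro r r' h
  apply Subtype.ext
  rw [← r.2.choose_spec, ← r'.2.choose_spec]
  exact key _ _ h

end Vale.Agent.P192.Tree
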