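import Mathlib
import Vale.Agent.P192.Tree.Forest

/-!
P192: the orbits of one bijection are covered by a forest of rays with at most two points per vertex.
-/

namespace Vale.Agent.P192.Tree

open Equiv SimpleGraph
open scoped Classical

universe u v

variable {X : Type v}

lemma lines_cover (ψ : Perm X) : ∃ (V : Type v) (T : SimpleGraph V) (π : X → V), T.IsAcyclic ∧
    (∀ r : ℕ, ∃ c : ℕ, ∀ (a : V) (s : Finset X),
      (∀ x ∈ s, ∃ p : T.Walk a (π x), p.length ≤ r) → s.card ≤ c) ∧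
    ∀ (k : ℤ) x, ∃ p : T.Walk (π x) (π ((ψ ^ k) x)), p.length ≤ k.natAbs := by
  obtain ⟨Q, hQ⟩ : ∃ Q : Setoid X, ∀ x y, Q.r x y ↔ ∃ k : ℤ, (ψ ^ k) x = y :=
    ⟨⟨fun x y => ∃ k : ℤ, (ψ ^ k) x = y, ⟨fun x => ⟨0, by simp⟩,
      fun {x y} ⟨k, h⟩ => ⟨-k, by rw [zpow_neg, Perm.inv_eq_iff_eq, h]⟩,
      fun {x y z} ⟨k, h⟩ ⟨l, h'⟩ => ⟨l + k, by rw [zpow_add, Perm.mul_apply, h, h']⟩⟩⟩,
      fun _ _ => Iff.rfl⟩
  have hrep : ∀ x, ∃ m : ℕ, ∃ k : ℤ, k.natAbs = m ∧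
      (ψ ^ k) (Quotient.out (Quotient.mk Q x)) = x := fun x => by
    obtain ⟨k, hk⟩ := (hQ _ _).1 (Quotient.exact (Quotient.out_eq (Quotient.mk Q x)))
    exact ⟨_, k, rfl, hk⟩
  obtain ⟨d, hd⟩ : ∃ d : X → ℕ, ∀ x, d x = Nat.find (hrep x) := ⟨_, fun _ => rfl⟩
  obtain ⟨T, hT⟩ : ∃ T : SimpleGraph (Quotient Q × ℕ), ∀ a b, T.Adj a b ↔
      a.1 = b.1 ∧ (b.2 = a.2 + 1 ∨ a.2 = b.2 + 1) :=
    ⟨{ Adj := fun a b => a.1 = b.1 ∧ (b.2 = a.2 + 1 ∨ a.2 = b.2 + 1)
       symm := ⟨fun a b h => ⟨h.1.symm, h.2.symm⟩⟩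
       loopless := ⟨fun a h => by omega⟩ }, fun _ _ => Iff.rfl⟩
  obtain ⟨π, hπ⟩ : ∃ π : X → Quotient Q × ℕ, ∀ x, π x = (Quotient.mk Q x, d x) :=
    ⟨_, fun _ => rfl⟩
  -- walks keep the first coordinate and move the second by at most their length
  have walk_len : ∀ {a b} (p : T.Walk a b),
      a.1 = b.1 ∧ b.2 ≤ a.2 + p.length ∧ a.2 ≤ b.2 + p.length := by
    intro a b p
    induction p with
    | nil => simp
    | cons h q ih =>
      obtain ⟨h1, h2⟩ := (hT _ _).1 h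
      rw [Walk.length_cons]
      exact ⟨h1.trans ih.1, by omega, by omega⟩
  have walk_ex : ∀ (q : Quotient Q) (a l : ℕ), ∃ p : T.Walk (q, a) (q, a + l), p.length = l := by
    intro q a l
    induction l with
    | zero => exact ⟨Walk.nil, rfl⟩
    | succ l ih =>
      obtain ⟨p, hp⟩ := ih
      exact ⟨p.concat ((hT _ _).2 ⟨rfl, Or.inl rfl⟩), by rw [Walk.length_concat, hp]⟩
  refine ⟨_, T, π, ?_, fun r => ⟨2 * (2 * r + 1), fun a s hs => ?_⟩, fun k x => ?_⟩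
  · rw [isAcyclic_iff_forall_adj_isBridge]
    intro v w hvw
    rw [isBridge_iff]
    intro hr
    obtain ⟨h1, h2⟩ := (hT _ _).1 hvw
    obtain ⟨m, hm⟩ : ∃ m, m = min v.2 w.2 := ⟨_, rfl⟩
    have key : ∀ {a b} (_ : (T.deleteEdges {s(v, w)}).Reachable a b),
        a.1 = v.1 → (a.2 ≤ m ↔ b.2 ≤ m) := by
      intro a b hab
      obtain ⟨p⟩ := hab
      induction p with
      | nil => intro _; rfl
      | @cons a b c h q ih =>
        intro ha
        rw [deleteEdges_adj, hT, Set.mem_singleton_iff] at h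
        obtain ⟨⟨e1, e2⟩, e3⟩ := h
        rw [← ih (e1 ▸ ha)]
        refine ⟨fun hle => ?_, fun hle => ?_⟩
        · by_contra hne
          refine e3 (Sym2.eq_iff.2 ?_)
          rcases h2 with h2 | h2
          · exact Or.inl ⟨Prod.ext ha (by omega), Prod.ext (e1 ▸ ha.trans h1) (by omega)⟩
          · exact Or.inr ⟨Prod.ext (ha.trans h1) (by omega), Prod.ext (e1 ▸ ha) (by omega)⟩
        · by_contra hne
          refine e3 (Sym2.eq_iff.2 ?_)
          rcases h2 with h2 | h2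
          · exact Or.inr ⟨Prod.ext (ha.trans h1) (by omega), Prod.ext (e1 ▸ ha) (by omega)⟩
          · exact Or.inl ⟨Prod.ext ha (by omega), Prod.ext (e1 ▸ ha.trans h1) (by omega)⟩
    have := key hr rfl
    omega
  · obtain ⟨F, hF⟩ : ∃ F : Finset (ℕ × Bool),
        F = (Finset.Icc (a.2 - r) (a.2 + r)) ×ˢ (Finset.univ : Finset Bool) := ⟨_, rfl⟩
    have sub : s ⊆ F.image fun q => (ψ ^ (if q.2 then (q.1 : ℤ) else -(q.1 : ℤ))) a.1.out := by
      intro x hx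
      obtain ⟨p, hp⟩ := hs x hx
      obtain ⟨e1, e2, e3⟩ := walk_len p
      rw [congrArg Prod.fst (hπ x)] at e1
      rw [congrArg Prod.snd (hπ x)] at e2 e3
      simp only at e1 e2 e3
      obtain ⟨k, hk, hk'⟩ := Nat.find_spec (hrep x)
      rw [← hd] at hk
      rw [Finset.mem_image, e1]
      refine ⟨(d x, decide (0 ≤ k)), by simp [hF]; omega, ?_⟩
      conv_rhs => rw [← hk']
      congr 2
      by_cases hk0 : 0 ≤ k <;> simp [hk0] <;> omega
    refine (Finset.card_le_card sub).trans (Finset.card_image_le.trans ?_)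
    rw [hF, Finset.card_product, Nat.card_Icc, Finset.card_univ, Fintype.card_bool]
    omega
  · have heq : Quotient.mk Q ((ψ ^ k) x) = Quotient.mk Q x :=
      (Quotient.sound ((hQ _ _).2 ⟨k, rfl⟩)).symm
    obtain ⟨l, hl, hl'⟩ := Nat.find_spec (hrep x)
    obtain ⟨l', hl2, hl2'⟩ := Nat.find_spec (hrep ((ψ ^ k) x))
    have b1 : d ((ψ ^ k) x) ≤ d x + k.natAbs := by
      rw [hd, hd]
      refine le_trans (Nat.find_le ⟨k + l, rfl, ?_⟩) (by omega)
      rw [heq, zpow_add, Perm.mul_apply, hl']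
    have b2 : d x ≤ d ((ψ ^ k) x) + k.natAbs := by
      rw [hd, hd]
      refine le_trans (Nat.find_le ⟨-k + l', rfl, ?_⟩) (by omega)
      rw [← heq, zpow_add, Perm.mul_apply, hl2', zpow_neg, Perm.inv_eq_iff_eq]
    rw [hπ, hπ, heq]
    rcases le_total (d x) (d ((ψ ^ k) x)) with h | h
    · obtain ⟨p, hp⟩ := walk_ex (Quotient.mk Q x) (d x) (d ((ψ ^ k) x) - d x)
      exact ⟨p.copy rfl (by rw [Nat.add_sub_cancel' h]), by rw [Walk.length_copy, hp]; omega⟩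
    · obtain ⟨p, hp⟩ := walk_ex (Quotient.mk Q x) (d ((ψ ^ k) x)) (d x - d ((ψ ^ k) x))
      exact ⟨p.reverse.copy (by rw [Nat.add_sub_cancel' h]) rfl,
        by rw [Walk.length_copy, Walk.length_reverse, hp]; omega⟩

/-- bounded displacement along the orbits of one bijection -/
lemma image_finite_of_perm {G : Type u} [Group G] [Group.IsFinitelyPresented G]
    (hT : ∀ g : G, IsOfFinOrder g) (ψ : Perm X) (ρ : G →* Perm X)
    (hρ : ∀ g, ∃ N : ℕ, ∀ x, ∃ k : ℤ, |k| ≤ N ∧ ρ g x = (ψ ^ k) x) :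
    (Set.range ρ).Finite := by
  obtain ⟨V, T, π, hacy, hball, hwalk⟩ := lines_cover ψ
  refine image_finite_of_forest hT ρ hacy π hball fun g => ?_
  obtain ⟨N, hN⟩ := hρ g
  refine ⟨N, fun x => ?_⟩
  obtain ⟨k, hk, hk'⟩ := hN x
  obtain ⟨p, hp⟩ := hwalk k x
  rw [hk']
  exact ⟨p, by rw [Int.abs_eq_natAbs] at hk; omega⟩

end Vale.Agent.P192.Tree
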